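import Mathlib

/-!
# P248 (helper76): the cone inequality in one variable (backup copy of job A)

For `a` concave, antitone and nonnegative on `[0, h]`, a point `t0 ∈ [0, h]` and
`0 ≤ r0 ≤ a t0`:
`t0 * a 0 ^ (m + 1) + (m + 1) * r0 * ∫_0^h a ^ m ≤ (m + 2) * ∫_0^h a ^ (m + 1)`.
-/

namespace Vale.Agent.Lib.P248.H76

open MeasureTheory Set Filter Topology

/-- `y^(m+1) + (m+1) x y^m ≤ (x + y)^(m+1)` for `x, y ≥ 0`. -/
theorem pow_add_lb (x y : ℝ) (hx : 0 ≤ x) (hy : 0 ≤ y) (m : ℕ) :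
    y ^ (m + 1) + ((m : ℝ) + 1) * x * y ^ m ≤ (x + y) ^ (m + 1) := by
  induction m with
  | zero => simp; linarith
  | succ k ih =>
    have h1 : (x + y) * (y ^ (k + 1) + ((k : ℝ) + 1) * x * y ^ k)
        ≤ (x + y) * (x + y) ^ (k + 1) :=
      mul_le_mul_of_nonneg_left ih (add_nonneg hx hy)
    have h2 : y ^ (k + 1 + 1) + (((k + 1 : ℕ) : ℝ) + 1) * x * y ^ (k + 1)
        = (x + y) * (y ^ (k + 1) + ((k : ℝ) + 1) * x * y ^ k)
          - ((k : ℝ) + 1) * (x * x * y ^ k) := by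
      push_cast; ring
    have h3 : 0 ≤ ((k : ℝ) + 1) * (x * x * y ^ k) := by positivity
    have h4 : (x + y) ^ (k + 1 + 1) = (x + y) * (x + y) ^ (k + 1) := by ring
    rw [h2, h4]
    linarith

/-- The cone inequality before the limit: the factor `(1 - ε)^(m+1)` is still present. -/
theorem cone_step {h : ℝ} (hh : 0 < h) {a : ℝ → ℝ}
    (hc : ConcaveOn ℝ (Icc 0 h) a) (hanti : AntitoneOn a (Icc 0 h))
    (hpos : ∀ t ∈ Icc 0 h, 0 ≤ a t) (m : ℕ) {t0 r0 : ℝ} (ht0 : t0 ∈ Icc 0 h)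
    (hr0 : 0 ≤ r0) (hr0' : r0 ≤ a t0) {ε : ℝ} (hε0 : 0 < ε) (hε1 : ε < 1) :
    (1 - ε) ^ (m + 1) * (t0 * a 0 ^ (m + 1) + ((m : ℝ) + 1) * r0 * (∫ t in (0:ℝ)..h, a t ^ m)) ≤
      ((m : ℝ) + 2) * ∫ t in (0:ℝ)..h, a t ^ (m + 1) := by
  have h0mem : (0:ℝ) ∈ Icc 0 h := ⟨le_rfl, hh.le⟩
  obtain ⟨lam, hlam⟩ : ∃ lam : ℝ, lam = 1 - ε := ⟨_, rfl⟩
  have hlam0 : 0 < lam := by rw [hlam]; linarith
  have hsum : lam + ε = 1 := by rw [hlam]; ring
  obtain ⟨p, hp⟩ : ∃ p : ℝ, p = ε * t0 := ⟨_, rfl⟩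
  obtain ⟨q, hq⟩ : ∃ q : ℝ, q = p + lam * h := ⟨_, rfl⟩
  have hp0 : 0 ≤ p := by rw [hp]; exact mul_nonneg hε0.le ht0.1
  have hpq : p ≤ q := by rw [hq]; nlinarith [mul_pos hlam0 hh]
  have hqh : q ≤ h := by
    rw [hq, hp]
    have : ε * t0 ≤ ε * h := mul_le_mul_of_nonneg_left ht0.2 hε0.le
    nlinarith
  have hph : p ≤ h := hpq.trans hqh
  have hpowanti : ∀ k : ℕ, AntitoneOn (fun t => a t ^ k) (Icc 0 h) := fun k x hx y hy hxy =>
    pow_le_pow_left₀ (hpos y hy) (hanti hx hy hxy) k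
  have hint : ∀ (k : ℕ) (u v : ℝ), 0 ≤ u → u ≤ v → v ≤ h →
      IntervalIntegrable (fun t => a t ^ k) volume u v := fun k u v hu huv hv =>
    ((hpowanti k).mono (by rw [uIcc_of_le huv]; exact Icc_subset_Icc hu hv)).intervalIntegrable
  -- first piece
  have hfirst : p * (lam * a 0) ^ (m + 1) ≤ ∫ t in (0:ℝ)..p, a t ^ (m + 1) := by
    have hconst : ∫ _t in (0:ℝ)..p, (lam * a 0) ^ (m + 1) = p * (lam * a 0) ^ (m + 1) := by
      simp [intervalIntegral.integral_const]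
    rw [← hconst]
    apply intervalIntegral.integral_mono_on hp0 intervalIntegrable_const
      (hint (m + 1) 0 p le_rfl hp0 hph)
    intro t ht
    have htmem : t ∈ Icc 0 h := ⟨ht.1, ht.2.trans hph⟩
    have hpmem : p ∈ Icc 0 h := ⟨hp0, hph⟩
    have h1 : a p ≤ a t := hanti htmem hpmem ht.2
    have h2 : lam * a 0 + ε * a t0 ≤ a p := by
      have h := hc.2 h0mem ht0 hlam0.le hε0.le hsum
      simp only [smul_eq_mul, mul_zero, zero_add] at h
      rw [hp]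
      exact h
    have h3 : 0 ≤ ε * a t0 := mul_nonneg hε0.le (hpos t0 ht0)
    exact pow_le_pow_left₀ (mul_nonneg hlam0.le (hpos 0 h0mem)) (by linarith) _
  -- second piece: substitution
  have hsub : lam * ∫ t in (0:ℝ)..h, a (p + lam * t) ^ (m + 1)
      = ∫ x in p..q, a x ^ (m + 1) := by
    have h := intervalIntegral.smul_integral_comp_add_mul (f := fun x => a x ^ (m + 1))
      (a := 0) (b := h) lam p
    simp only [smul_eq_mul, mul_zero, add_zero] at h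
    rw [hq]
    exact h
  have hmemshift : ∀ t ∈ Icc (0:ℝ) h, p + lam * t ∈ Icc 0 h := by
    intro t ht
    refine ⟨add_nonneg hp0 (mul_nonneg hlam0.le ht.1), ?_⟩
    have : lam * t ≤ lam * h := mul_le_mul_of_nonneg_left ht.2 hlam0.le
    rw [hq] at hqh
    linarith
  have hshiftanti : AntitoneOn (fun t => a (p + lam * t) ^ (m + 1)) (Icc 0 h) := by
    intro x hx y hy hxy
    have hle : p + lam * x ≤ p + lam * y := by
      have : lam * x ≤ lam * y := mul_le_mul_of_nonneg_left hxy hlam0.le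
      linarith
    exact pow_le_pow_left₀ (hpos _ (hmemshift y hy))
      (hanti (hmemshift x hx) (hmemshift y hy) hle) _
  have hshiftint : IntervalIntegrable (fun t => a (p + lam * t) ^ (m + 1)) volume 0 h :=
    (hshiftanti.mono (by rw [uIcc_of_le hh.le])).intervalIntegrable
  have hgint : IntervalIntegrable (fun t => lam ^ (m + 1) * a t ^ (m + 1)
      + (((m : ℝ) + 1) * (ε * r0) * lam ^ m) * a t ^ m) volume 0 h :=
    ((hint (m + 1) 0 h le_rfl hh.le le_rfl).const_mul _).add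
      ((hint m 0 h le_rfl hh.le le_rfl).const_mul _)
  have hsecond : lam ^ (m + 1) * (∫ t in (0:ℝ)..h, a t ^ (m + 1))
      + (((m : ℝ) + 1) * (ε * r0) * lam ^ m) * (∫ t in (0:ℝ)..h, a t ^ m)
      ≤ ∫ t in (0:ℝ)..h, a (p + lam * t) ^ (m + 1) := by
    have hlin : ∫ t in (0:ℝ)..h, (lam ^ (m + 1) * a t ^ (m + 1)
        + (((m : ℝ) + 1) * (ε * r0) * lam ^ m) * a t ^ m)
        = lam ^ (m + 1) * (∫ t in (0:ℝ)..h, a t ^ (m + 1))
          + (((m : ℝ) + 1) * (ε * r0) * lam ^ m) * (∫ t in (0:ℝ)..h, a t ^ m) := by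
      rw [intervalIntegral.integral_add
        ((hint (m + 1) 0 h le_rfl hh.le le_rfl).const_mul _)
        ((hint m 0 h le_rfl hh.le le_rfl).const_mul _),
        intervalIntegral.integral_const_mul, intervalIntegral.integral_const_mul]
    rw [← hlin]
    apply intervalIntegral.integral_mono_on hh.le hgint hshiftint
    intro t ht
    have hat : 0 ≤ a t := hpos t ht
    have hx : 0 ≤ ε * r0 := mul_nonneg hε0.le hr0
    have hy : 0 ≤ lam * a t := mul_nonneg hlam0.le hat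
    have hb := pow_add_lb (ε * r0) (lam * a t) hx hy m
    have hconc : ε * a t0 + lam * a t ≤ a (p + lam * t) := by
      have h := hc.2 ht0 ht hε0.le hlam0.le (by linarith)
      simp only [smul_eq_mul] at h
      rw [hp]
      exact h
    have hle : ε * r0 + lam * a t ≤ a (p + lam * t) := by
      have : ε * r0 ≤ ε * a t0 := mul_le_mul_of_nonneg_left hr0' hε0.le
      linarith
    have hpow : (ε * r0 + lam * a t) ^ (m + 1) ≤ a (p + lam * t) ^ (m + 1) :=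
      pow_le_pow_left₀ (add_nonneg hx hy) hle _
    have hexp : lam ^ (m + 1) * a t ^ (m + 1) + (((m : ℝ) + 1) * (ε * r0) * lam ^ m) * a t ^ m
        = (lam * a t) ^ (m + 1) + ((m : ℝ) + 1) * (ε * r0) * (lam * a t) ^ m := by
      rw [mul_pow, mul_pow]; ring
    rw [hexp]
    exact hb.trans hpow
  -- third piece
  have hthird : 0 ≤ ∫ t in q..h, a t ^ (m + 1) :=
    intervalIntegral.integral_nonneg hqh
      (fun t ht => pow_nonneg (hpos t ⟨(hp0.trans hpq).trans ht.1, ht.2⟩) _)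
  -- splitting
  have hq0 : 0 ≤ q := hp0.trans hpq
  have hsplit : (∫ t in (0:ℝ)..p, a t ^ (m + 1)) + (∫ t in p..q, a t ^ (m + 1))
      + (∫ t in q..h, a t ^ (m + 1)) = ∫ t in (0:ℝ)..h, a t ^ (m + 1) := by
    rw [intervalIntegral.integral_add_adjacent_intervals (hint (m + 1) 0 p le_rfl hp0 hph)
      (hint (m + 1) p q hp0 hpq hqh),
      intervalIntegral.integral_add_adjacent_intervals (hint (m + 1) 0 q le_rfl hq0 hqh)
      (hint (m + 1) q h hq0 hqh le_rfl)]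
  obtain ⟨I1, hI1⟩ : ∃ I1 : ℝ, I1 = ∫ t in (0:ℝ)..h, a t ^ (m + 1) := ⟨_, rfl⟩
  obtain ⟨I0, hI0⟩ : ∃ I0 : ℝ, I0 = ∫ t in (0:ℝ)..h, a t ^ m := ⟨_, rfl⟩
  have hI1nn : 0 ≤ I1 := by
    rw [hI1]
    exact intervalIntegral.integral_nonneg hh.le (fun t ht => pow_nonneg (hpos t ht) _)
  rw [← hI1] at hsplit
  rw [← hI1, ← hI0] at hsecond
  rw [← hI1, ← hI0]
  -- main estimate
  have hmain : p * (lam * a 0) ^ (m + 1)
      + lam * (lam ^ (m + 1) * I1 + (((m : ℝ) + 1) * (ε * r0) * lam ^ m) * I0) ≤ I1 := by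
    have h5 : lam * (lam ^ (m + 1) * I1 + (((m : ℝ) + 1) * (ε * r0) * lam ^ m) * I0)
        ≤ ∫ x in p..q, a x ^ (m + 1) := by
      rw [← hsub]
      exact mul_le_mul_of_nonneg_left hsecond hlam0.le
    linarith
  have hbern : 1 - ((m : ℝ) + 2) * ε ≤ lam ^ (m + 2) := by
    have h := one_add_mul_le_pow (a := -ε) (by linarith) (m + 2)
    have e1 : (1 : ℝ) + ((m + 2 : ℕ) : ℝ) * -ε = 1 - ((m : ℝ) + 2) * ε := by push_cast; ring
    have e2 : (1 : ℝ) + -ε = lam := by rw [hlam]; ring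
    rw [e1, e2] at h
    exact h
  have hbern' : (1 - ((m : ℝ) + 2) * ε) * I1 ≤ lam ^ (m + 2) * I1 :=
    mul_le_mul_of_nonneg_right hbern hI1nn
  have hexpand : p * (lam * a 0) ^ (m + 1)
      + lam * (lam ^ (m + 1) * I1 + (((m : ℝ) + 1) * (ε * r0) * lam ^ m) * I0)
      = ε * (lam ^ (m + 1) * (t0 * a 0 ^ (m + 1) + ((m : ℝ) + 1) * r0 * I0))
        + lam ^ (m + 2) * I1 := by
    rw [hp, mul_pow]; ring
  rw [hexpand] at hmain
  have hfin : ε * (lam ^ (m + 1) * (t0 * a 0 ^ (m + 1) + ((m : ℝ) + 1) * r0 * I0))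
      ≤ ε * (((m : ℝ) + 2) * I1) := by nlinarith
  have := le_of_mul_le_mul_left hfin hε0
  rw [← hlam]
  exact this

/-- The cone inequality (job A of helper61, same signature). -/
theorem cone_ineq {h : ℝ} (hh : 0 < h) {a : ℝ → ℝ}
    (hc : ConcaveOn ℝ (Icc 0 h) a) (hanti : AntitoneOn a (Icc 0 h))
    (hpos : ∀ t ∈ Icc 0 h, 0 ≤ a t) (m : ℕ) {t0 r0 : ℝ} (ht0 : t0 ∈ Icc 0 h)
    (hr0 : 0 ≤ r0) (hr0' : r0 ≤ a t0) :
    t0 * a 0 ^ (m + 1) + (m + 1) * r0 * (∫ t in (0:ℝ)..h, a t ^ m) ≤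
      (m + 2) * ∫ t in (0:ℝ)..h, a t ^ (m + 1) := by
  obtain ⟨R, hR⟩ : ∃ R : ℝ,
      R = t0 * a 0 ^ (m + 1) + ((m : ℝ) + 1) * r0 * (∫ t in (0:ℝ)..h, a t ^ m) := ⟨_, rfl⟩
  obtain ⟨L, hL⟩ : ∃ L : ℝ, L = ((m : ℝ) + 2) * ∫ t in (0:ℝ)..h, a t ^ (m + 1) := ⟨_, rfl⟩
  have htend : Tendsto (fun ε : ℝ => (1 - ε) ^ (m + 1) * R) (𝓝[>] 0)
      (𝓝 ((1 - 0) ^ (m + 1) * R)) :=
    (Continuous.tendsto (by fun_prop) 0).mono_left nhdsWithin_le_nhds
  have hev : ∀ᶠ ε in 𝓝[>] (0:ℝ), (1 - ε) ^ (m + 1) * R ≤ L := by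
    filter_upwards [Ioo_mem_nhdsGT (by norm_num : (0:ℝ) < 1)] with ε hε
    rw [hR, hL]
    exact cone_step hh hc hanti hpos m ht0 hr0 hr0' hε.1 hε.2
  have hfinal := le_of_tendsto htend hev
  rw [hR, hL] at hfinal
  simpa using hfinal

end Vale.Agent.Lib.P248.H76
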