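import Mathlib

/-!
# P248 (helper76): a lower bound for the lower integral of a function dominating an even profile

If `G τ ≥ ofReal (g |τ|) * V` for all `τ ∈ [-c, c]`, with `g` antitone and nonnegative on
`[0, c]`, then `∫⁻ G ≥ ofReal (2 ∫_0^c g) * V`.  No measurability of `G` is assumed.
-/

namespace Vale.Agent.Lib.P248.H76

open MeasureTheory Set
open scoped ENNReal

/-- The positive half: `∫⁻_{(0,c]} ofReal (g |τ|) = ofReal (∫_0^c g)`. -/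
theorem lintegral_pos_half {c : ℝ} (hc : 0 ≤ c) {g : ℝ → ℝ} (hg : AntitoneOn g (Icc 0 c))
    (hg0 : ∀ x ∈ Icc 0 c, 0 ≤ g x) :
    ∫⁻ τ in Ioc 0 c, ENNReal.ofReal (g |τ|) = ENNReal.ofReal (∫ x in (0:ℝ)..c, g x) := by
  have hint : IntegrableOn g (Ioc 0 c) volume :=
    (hg.integrableOn_isCompact isCompact_Icc).mono_set Ioc_subset_Icc_self
  have hnn : 0 ≤ᵐ[volume.restrict (Ioc 0 c)] g :=
    ae_restrict_of_forall_mem measurableSet_Ioc (fun x hx => hg0 x ⟨hx.1.le, hx.2⟩)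
  rw [intervalIntegral.integral_of_le hc, ofReal_integral_eq_lintegral_ofReal hint hnn]
  refine setLIntegral_congr_fun measurableSet_Ioc (fun τ hτ => ?_)
  simp only [abs_of_pos hτ.1]

/-- The negative half: `∫⁻_{(-c,0]} ofReal (g |τ|) = ofReal (∫_0^c g)`. -/
theorem lintegral_neg_half {c : ℝ} (hc : 0 ≤ c) {g : ℝ → ℝ} (hg : AntitoneOn g (Icc 0 c))
    (hg0 : ∀ x ∈ Icc 0 c, 0 ≤ g x) :
    ∫⁻ τ in Ioc (-c) 0, ENNReal.ofReal (g |τ|) = ENNReal.ofReal (∫ x in (0:ℝ)..c, g x) := by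
  have hmono : MonotoneOn (fun τ : ℝ => g (-τ)) (Icc (-c) 0) := by
    intro x hx y hy hxy
    exact hg ⟨by linarith [hy.2], by linarith [hy.1]⟩ ⟨by linarith [hx.2], by linarith [hx.1]⟩
      (by linarith)
  have hint : IntegrableOn (fun τ : ℝ => g (-τ)) (Ioc (-c) 0) volume :=
    (hmono.integrableOn_isCompact isCompact_Icc).mono_set Ioc_subset_Icc_self
  have hnn : 0 ≤ᵐ[volume.restrict (Ioc (-c) 0)] (fun τ : ℝ => g (-τ)) :=
    ae_restrict_of_forall_mem measurableSet_Ioc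
      (fun x hx => hg0 (-x) ⟨by linarith [hx.2], by linarith [hx.1]⟩)
  have hc' : -c ≤ 0 := by linarith
  have hflip : (∫ x in (0:ℝ)..c, g x) = ∫ τ in (-c)..(0:ℝ), g (-τ) := by
    rw [intervalIntegral.integral_comp_neg]
    simp
  rw [hflip, intervalIntegral.integral_of_le hc', ofReal_integral_eq_lintegral_ofReal hint hnn]
  refine setLIntegral_congr_fun measurableSet_Ioc (fun τ hτ => ?_)
  simp only [abs_of_nonpos hτ.2]

theorem lintegral_even_ge {c : ℝ} (hc : 0 ≤ c) {g : ℝ → ℝ} (hg : AntitoneOn g (Icc 0 c))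
    (hg0 : ∀ x ∈ Icc 0 c, 0 ≤ g x) (G : ℝ → ℝ≥0∞) (V : ℝ≥0∞)
    (hG : ∀ τ ∈ Icc (-c) c, ENNReal.ofReal (g |τ|) * V ≤ G τ) :
    ENNReal.ofReal (2 * ∫ x in (0:ℝ)..c, g x) * V ≤ ∫⁻ τ, G τ := by
  have hI : 0 ≤ ∫ x in (0:ℝ)..c, g x :=
    intervalIntegral.integral_nonneg hc (fun x hx => hg0 x hx)
  have hdisj : Disjoint (Ioc (-c) 0) (Ioc 0 c) := by
    rw [Set.disjoint_left]
    intro x hx hx'
    exact absurd hx.2 (not_le.2 hx'.1)
  have hsub : Ioc (-c) 0 ∪ Ioc 0 c ⊆ Icc (-c) c := by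
    intro x hx
    rcases hx with hx | hx
    · exact ⟨hx.1.le, hx.2.trans hc⟩
    · exact ⟨by linarith [hx.1], hx.2⟩
  calc ENNReal.ofReal (2 * ∫ x in (0:ℝ)..c, g x) * V
      = (ENNReal.ofReal (∫ x in (0:ℝ)..c, g x) + ENNReal.ofReal (∫ x in (0:ℝ)..c, g x)) * V := by
        rw [← ENNReal.ofReal_add hI hI, two_mul]
    _ = ((∫⁻ τ in Ioc (-c) 0, ENNReal.ofReal (g |τ|))
          + ∫⁻ τ in Ioc 0 c, ENNReal.ofReal (g |τ|)) * V := by
        rw [lintegral_neg_half hc hg hg0, lintegral_pos_half hc hg hg0]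
    _ = (∫⁻ τ in Ioc (-c) 0 ∪ Ioc 0 c, ENNReal.ofReal (g |τ|)) * V := by
        rw [lintegral_union measurableSet_Ioc hdisj]
    _ ≤ (∫⁻ τ in Icc (-c) c, ENNReal.ofReal (g |τ|)) * V := by
        gcongr
    _ ≤ ∫⁻ τ in Icc (-c) c, ENNReal.ofReal (g |τ|) * V := lintegral_mul_const_le _ _
    _ ≤ ∫⁻ τ in Icc (-c) c, G τ := setLIntegral_mono' measurableSet_Icc hG
    _ ≤ ∫⁻ τ, G τ := setLIntegral_le_lintegral _ _

end Vale.Agent.Lib.P248.H76
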