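import Mathlib
import Vale.Agent.Lib.P248.helper37.Q2Defs

/-!
P248 pool job Q2AB-J3 (second copy, helper76): basic facts on `posZ`, `polZ` and the volumes
`vA`, `vT`.
-/

open MeasureTheory Set

namespace Vale.Agent.Lib.P248.H76Q

open Vale.Agent.Lib.P248.H37 Vale.Agent.Lib.P248.H37Q

theorem isClosed_half {m : ℕ} (c : Fin m → ℝ) :
    IsClosed {y : Fin m → ℝ | ∑ i, c i * y i ≤ 1} := by
  have hcont : Continuous fun y : Fin m → ℝ => ∑ i, c i * y i :=
    continuous_finsetSum _ fun i _ => continuous_const.mul (continuous_apply i)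
  exact isClosed_le hcont continuous_const

theorem isClosed_polZ {m : ℕ} (A : Set (Fin m → ℝ)) (z : Fin m → ℝ) : IsClosed (polZ A z) := by
  have h : polZ A z = ⋂ x ∈ A, {y : Fin m → ℝ | ∑ i, (x i - z i) * y i ≤ 1} := by
    ext y
    constructor
    · intro hy
      exact mem_iInter₂.mpr fun x hx => hy x hx
    · intro hy x hx
      exact mem_iInter₂.mp hy x hx
  rw [h]
  exact isClosed_biInter fun x _ => isClosed_half fun i => x i - z i

theorem posZ_eq {m : ℕ} (A : Set (Fin m → ℝ)) (z : Fin m → ℝ) :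
    posZ A z = {y : Fin m → ℝ | ∀ i, 0 ≤ y i} ∩ polZ A z := rfl

theorem isClosed_posZ {m : ℕ} (A : Set (Fin m → ℝ)) (z : Fin m → ℝ) : IsClosed (posZ A z) := by
  rw [posZ_eq]
  exact IsClosed.inter Vale.Agent.Lib.P248.H37.isClosed_nonneg (isClosed_polZ A z)

theorem posZ_subset_Icc {m : ℕ} {A : Set (Fin m → ℝ)} {z : Fin m → ℝ} {ε : ℝ} (hε : 0 < ε)
    (hmem : (fun i => z i + ε) ∈ A) :
    posZ A z ⊆ Icc (0 : Fin m → ℝ) (fun _ => 1 / ε) := by
  intro y hy
  obtain ⟨hy0, hy1⟩ := hy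
  have h1 := hy1 _ hmem
  have h2 : ∑ i, (z i + ε - z i) * y i = ε * ∑ i, y i := by
    rw [Finset.mul_sum]
    refine Finset.sum_congr rfl fun i _ => ?_
    ring
  rw [h2] at h1
  refine ⟨fun i => hy0 i, fun i => ?_⟩
  have h3 : y i ≤ ∑ j, y j :=
    Finset.single_le_sum (f := fun j => y j) (fun j _ => hy0 j) (Finset.mem_univ i)
  rw [le_div_iff₀ hε]
  calc y i * ε = ε * y i := mul_comm _ _
    _ ≤ ε * ∑ j, y j := mul_le_mul_of_nonneg_left h3 hε.le
    _ ≤ 1 := h1

theorem isCompact_posZ {m : ℕ} {A : Set (Fin m → ℝ)} {z : Fin m → ℝ} (h : Adm A z) :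
    IsCompact (posZ A z) := by
  obtain ⟨ε, hε, hmem⟩ := h.room
  exact IsCompact.of_isClosed_subset isCompact_Icc (isClosed_posZ A z)
    (posZ_subset_Icc hε hmem)

theorem convex_posZ {m : ℕ} (A : Set (Fin m → ℝ)) (z : Fin m → ℝ) : Convex ℝ (posZ A z) := by
  intro y1 h1 y2 h2 a b ha hb hab
  refine ⟨fun i => ?_, fun x hx => ?_⟩
  · have e : (a • y1 + b • y2) i = a * y1 i + b * y2 i := by
      simp [Pi.add_apply, Pi.smul_apply, smul_eq_mul]
    rw [e]
    exact add_nonneg (mul_nonneg ha (h1.1 i)) (mul_nonneg hb (h2.1 i))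
  · have e : ∑ i, (x i - z i) * (a • y1 + b • y2) i =
        a * ∑ i, (x i - z i) * y1 i + b * ∑ i, (x i - z i) * y2 i := by
      rw [Finset.mul_sum, Finset.mul_sum, ← Finset.sum_add_distrib]
      refine Finset.sum_congr rfl fun i _ => ?_
      simp only [Pi.add_apply, Pi.smul_apply, smul_eq_mul]
      ring
    rw [e]
    have e1 := h1.2 x hx
    have e2 := h2.2 x hx
    calc a * ∑ i, (x i - z i) * y1 i + b * ∑ i, (x i - z i) * y2 i
        ≤ a * 1 + b * 1 :=
          add_le_add (mul_le_mul_of_nonneg_left e1 ha) (mul_le_mul_of_nonneg_left e2 hb)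
      _ = 1 := by rw [mul_one, mul_one, hab]

theorem volume_posZ_ne_top {m : ℕ} {A : Set (Fin m → ℝ)} {z : Fin m → ℝ} (h : Adm A z) :
    volume (posZ A z) ≠ ⊤ := by
  obtain ⟨ε, hε, hmem⟩ := h.room
  have hsub := posZ_subset_Icc hε hmem
  have hfin : volume (Icc (0 : Fin m → ℝ) (fun _ => 1 / ε)) < ⊤ := by
    rw [Real.volume_Icc_pi]
    exact ENNReal.prod_lt_top fun i _ => ENNReal.ofReal_lt_top
  exact (lt_of_le_of_lt (measure_mono hsub) hfin).ne

theorem cube_subset_posZ {m : ℕ} {A : Set (Fin m → ℝ)} {z : Fin m → ℝ} (h : Adm A z) :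
    ∃ d : ℝ, 0 < d ∧ Icc (0 : Fin m → ℝ) (fun _ => d) ⊆ posZ A z := by
  obtain ⟨R, hR⟩ := h.good.bdd
  have hR0 : 0 ≤ max R 0 := le_max_right _ _
  have hden : 0 < (m : ℝ) * max R 0 + 1 := by positivity
  refine ⟨1 / ((m : ℝ) * max R 0 + 1), by positivity, ?_⟩
  intro y hy
  refine ⟨fun i => hy.1 i, fun x hx => ?_⟩
  have hterm : ∀ i, (x i - z i) * y i ≤ max R 0 * (1 / ((m : ℝ) * max R 0 + 1)) := by
    intro i
    have hy0 : 0 ≤ y i := hy.1 i
    have hyd : y i ≤ 1 / ((m : ℝ) * max R 0 + 1) := hy.2 i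
    have hx1 : x i - z i ≤ max R 0 := by
      have h1 := hR x hx i
      have h2 := (h.pos i).le
      have h3 : R ≤ max R 0 := le_max_left _ _
      linarith
    calc (x i - z i) * y i ≤ max R 0 * y i := mul_le_mul_of_nonneg_right hx1 hy0
      _ ≤ max R 0 * (1 / ((m : ℝ) * max R 0 + 1)) := mul_le_mul_of_nonneg_left hyd hR0
  calc ∑ i, (x i - z i) * y i
      ≤ ∑ _i : Fin m, max R 0 * (1 / ((m : ℝ) * max R 0 + 1)) :=
        Finset.sum_le_sum fun i _ => hterm i
    _ = (m : ℝ) * max R 0 / ((m : ℝ) * max R 0 + 1) := by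
        rw [Finset.sum_const, Finset.card_univ, Fintype.card_fin, nsmul_eq_mul]
        ring
    _ ≤ 1 := by
        rw [div_le_one hden]
        linarith

theorem vT_pos {m : ℕ} {A : Set (Fin m → ℝ)} {z : Fin m → ℝ} (h : Adm A z) : 0 < vT A z := by
  obtain ⟨d, hd, hsub⟩ := cube_subset_posZ h
  have hpos : 0 < volume (posZ A z) := by
    have hc : 0 < volume (Icc (0 : Fin m → ℝ) (fun _ => d)) := by
      rw [Real.volume_Icc_pi]
      refine pos_iff_ne_zero.mpr (Finset.prod_ne_zero_iff.mpr fun i _ => ?_)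
      have hi : 0 < ENNReal.ofReal (d - (0 : Fin m → ℝ) i) := by
        rw [Pi.zero_apply, sub_zero]
        exact ENNReal.ofReal_pos.mpr hd
      exact hi.ne'
    exact lt_of_lt_of_le hc (measure_mono hsub)
  exact ENNReal.toReal_pos hpos.ne' (volume_posZ_ne_top h)

theorem vA_pos {m : ℕ} {A : Set (Fin m → ℝ)} (h : Good A) : 0 < vA A :=
  ENNReal.toReal_pos (good_vol_pos h).ne' (good_vol_lt_top h).ne

theorem volume_univ_zero : volume (univ : Set (Fin 0 → ℝ)) = 1 := by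
  rw [← Set.pi_univ (univ : Set (Fin 0)), volume_pi_pi]
  simp

theorem vT_dim_zero (A : Set (Fin 0 → ℝ)) (z : Fin 0 → ℝ) : vT A z = 1 := by
  have hD : posZ A z = univ := by
    apply eq_univ_of_forall
    intro y
    exact ⟨fun i => i.elim0, fun x _ => by simp⟩
  unfold vT
  rw [hD, volume_univ_zero]
  simp

theorem vA_dim_zero {A : Set (Fin 0 → ℝ)} (h : Good A) : vA A = 1 := by
  obtain ⟨ε, -, hc⟩ := h.cube
  have hA : A = univ := eq_univ_of_forall fun y => hc y fun i => i.elim0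
  unfold vA
  rw [hA, volume_univ_zero]
  simp

end Vale.Agent.Lib.P248.H76Q
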